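import Vale.Agent.Lib.P302.Check

namespace Vale.Agent.Lib.P302

open Finset

/-- Multiset-level packability: the items of `M` fit into `k` bins of capacity `L`. -/
def PK (L k : ℕ) (M : Multiset ℕ) : Prop :=
  ∃ B : Multiset (Multiset ℕ), Multiset.card B = k ∧ M ≤ B.join ∧ ∀ b ∈ B, b.sum ≤ L

theorem msum_le_of_le {M M' : Multiset ℕ} (h : M' ≤ M) : M'.sum ≤ M.sum := by
  obtain ⟨T, rfl⟩ := Multiset.le_iff_exists_add.mp h
  rw [Multiset.sum_add]; omega

theorem PK.mono {L k : ℕ} {M M' : Multiset ℕ} (h : PK L k M) (hle : M' ≤ M) : PK L k M' := by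
  obtain ⟨B, hc, hj, hb⟩ := h
  exact ⟨B, hc, hle.trans hj, hb⟩

theorem PK.sum_le {L k : ℕ} {M : Multiset ℕ} (h : PK L k M) : M.sum ≤ k * L := by
  obtain ⟨B, hc, hj, hb⟩ := h
  have h1 := msum_le_of_le hj
  rw [Multiset.sum_join] at h1
  have h2 : (Multiset.map Multiset.sum B).sum ≤ Multiset.card (Multiset.map Multiset.sum B) • L := by
    apply Multiset.sum_le_card_nsmul
    intro x hx
    obtain ⟨b, hbB, rfl⟩ := Multiset.mem_map.mp hx
    exact hb b hbB
  rw [Multiset.card_map, hc, smul_eq_mul] at h2
  omega

theorem PK.eq_zero {L : ℕ} {M : Multiset ℕ} (h : PK L 0 M) : M = 0 := by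
  obtain ⟨B, hc, hj, _⟩ := h
  rw [Multiset.card_eq_zero] at hc
  subst hc
  simpa using hj

theorem PK.cons {L k x : ℕ} {M : Multiset ℕ} (h : PK L (k+1) (x ::ₘ M)) :
    ∃ S ≤ M, x + S.sum ≤ L ∧ PK L k (M - S) := by
  obtain ⟨B, hc, hj, hb⟩ := h
  have hx : x ∈ B.join := Multiset.mem_of_le hj (Multiset.mem_cons_self x M)
  obtain ⟨b, hbB, hxb⟩ := Multiset.mem_join.mp hx
  obtain ⟨B', rfl⟩ := Multiset.exists_cons_of_mem hbB
  obtain ⟨b', rfl⟩ := Multiset.exists_cons_of_mem hxb
  rw [Multiset.join_cons, Multiset.cons_add] at hj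
  have hj' : M ≤ b' + B'.join := (Multiset.cons_le_cons_iff x).mp hj
  refine ⟨M - B'.join, Multiset.sub_le_self _ _, ?_, B', ?_, ?_, ?_⟩
  · have h1 : M - B'.join ≤ b' := by
      rw [tsub_le_iff_right]; exact hj'
    have h2 := msum_le_of_le h1
    have h3 := hb (x ::ₘ b') (Multiset.mem_cons_self _ _)
    rw [Multiset.sum_cons] at h3
    omega
  · simpa using hc
  · rw [Multiset.le_iff_count]
    intro a
    simp only [Multiset.count_sub]
    omega
  · intro b hb'
    exact hb b (Multiset.mem_cons_of_mem hb')

theorem PK.replace {L k a r : ℕ} {M : Multiset ℕ} (h : PK L k (a ::ₘ M)) (hr : r ≤ a) :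
    PK L k (r ::ₘ M) := by
  obtain ⟨B, hc, hj, hb⟩ := h
  have hx : a ∈ B.join := Multiset.mem_of_le hj (Multiset.mem_cons_self a M)
  obtain ⟨b, hbB, hxb⟩ := Multiset.mem_join.mp hx
  obtain ⟨B', rfl⟩ := Multiset.exists_cons_of_mem hbB
  obtain ⟨b', rfl⟩ := Multiset.exists_cons_of_mem hxb
  rw [Multiset.join_cons, Multiset.cons_add] at hj
  have hj' : M ≤ b' + B'.join := (Multiset.cons_le_cons_iff a).mp hj
  refine ⟨(r ::ₘ b') ::ₘ B', ?_, ?_, ?_⟩
  · simpa using hc
  · rw [Multiset.join_cons, Multiset.cons_add]
    exact (Multiset.cons_le_cons_iff r).mpr hj'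
  · intro b hb'
    rcases Multiset.mem_cons.mp hb' with rfl | hb''
    · have h3 := hb (a ::ₘ b') (Multiset.mem_cons_self _ _)
      rw [Multiset.sum_cons] at h3 ⊢
      omega
    · exact hb b (Multiset.mem_cons_of_mem hb'')

/-- Enumerate the sub-multisets of `rest` of total size at most `cap`
(never taking a value that has just been refused), and call `cont` on what is left. -/
def fill : List ℕ → ℕ → List ℕ → ℕ → (List ℕ → Bool) → Bool
  | [], _, kept, _, cont => cont kept.reverse
  | x :: xs, cap, kept, banned, cont =>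
    (!(Nat.beq x banned) && (Nat.ble x cap && fill xs (cap - x) kept banned cont))
      || fill xs cap (x :: kept) x cont

theorem fill_true (cont : List ℕ → Bool) :
    ∀ (rest : List ℕ) (cap : ℕ) (kept : List ℕ) (banned : ℕ) (S : Multiset ℕ),
      S ≤ (rest : Multiset ℕ) → S.sum ≤ cap → banned ∉ S →
      (∀ l : List ℕ, (l : Multiset ℕ) = (kept : Multiset ℕ) + ((rest : Multiset ℕ) - S) → cont l = true) →
      fill rest cap kept banned cont = true
  | [], cap, kept, banned, S, hS, _, _, hc => by
    simp only [fill]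
    apply hc
    have : S = 0 := by simpa using hS
    subst this
    simp
  | x :: xs, cap, kept, banned, S, hS, hsum, hb, hc => by
    simp only [fill, Bool.or_eq_true, Bool.and_eq_true, Bool.not_eq_true']
    by_cases hx : x ∈ S
    · left
      obtain ⟨S', rfl⟩ := Multiset.exists_cons_of_mem hx
      rw [Multiset.sum_cons] at hsum
      have hS' : S' ≤ (xs : Multiset ℕ) := by
        rw [← Multiset.cons_coe] at hS
        exact (Multiset.cons_le_cons_iff x).mp hS
      refine ⟨?_, ?_, ?_⟩
      · have hne : x ≠ banned := by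
          rintro rfl
          exact hb (Multiset.mem_cons_self _ _)
        cases hbeq : Nat.beq x banned
        · rfl
        · exact absurd (Nat.eq_of_beq_eq_true hbeq) hne
      · exact Nat.ble_eq_true_of_le (by omega)
      · apply fill_true cont xs (cap - x) kept banned S' hS' (by omega)
          (fun h => hb (Multiset.mem_cons_of_mem h))
        intro l hl
        apply hc
        rw [hl, ← Multiset.cons_coe]
        congr 1
        rw [Multiset.sub_cons, Multiset.erase_cons_head]
    · right
      have hS' : S ≤ (xs : Multiset ℕ) := by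
        rw [← Multiset.cons_coe] at hS
        exact (Multiset.le_cons_of_notMem hx).mp hS
      apply fill_true cont xs cap (x :: kept) x S hS' hsum hx
      intro l hl
      apply hc
      rw [hl, ← Multiset.cons_coe, ← Multiset.cons_coe, Multiset.cons_add]
      have : x ::ₘ (xs : Multiset ℕ) - S = x ::ₘ ((xs : Multiset ℕ) - S) := by
        rw [Multiset.cons_sub_of_le _ hS']
      rw [this, Multiset.add_cons]

/-- Bin-completion search.  `pack L stop k0 k items` looks for a packing of `items` into
`k + k0` bins of capacity `L`; after `k` bins it asks `stop` about the remaining items. -/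
def pack (L : ℕ) (stop : List ℕ → Bool) (k0 : ℕ) : ℕ → List ℕ → Bool
  | 0, items => stop items
  | _ + 1, [] => true
  | k + 1, x :: rest =>
    Nat.ble (x + rest.sum) ((k + 1 + k0) * L) &&
      fill rest (L - x) [] (L + 1) (pack L stop k0 k)

theorem pack_true (L : ℕ) (stop : List ℕ → Bool) (k0 : ℕ)
    (hstop : ∀ l : List ℕ, PK L k0 (l : Multiset ℕ) → stop l = true) :
    ∀ (k : ℕ) (items : List ℕ), PK L (k + k0) (items : Multiset ℕ) → pack L stop k0 k items = true
  | 0, items, h => by
    simp only [pack]
    apply hstop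
    simpa using h
  | k + 1, [], _ => rfl
  | k + 1, x :: rest, h => by
    simp only [pack, Bool.and_eq_true]
    constructor
    · apply Nat.ble_eq_true_of_le
      have := h.sum_le
      simpa using this
    · have h' : PK L ((k + k0) + 1) (x ::ₘ (rest : Multiset ℕ)) := by
        rw [Multiset.cons_coe]
        have : k + k0 + 1 = k + 1 + k0 := by omega
        rw [this]; exact h
      obtain ⟨S, hS, hsum, hP⟩ := h'.cons
      apply fill_true _ rest (L - x) [] (L + 1) S hS (by omega)
      · intro hmem
        have := Multiset.single_le_sum (fun _ _ => Nat.zero_le _) _ hmem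
        omega
      · intro l hl
        apply pack_true L stop k0 hstop k l
        rw [hl]
        simpa using hP

/-- `R` is dominated by `items`: position by position `R` is at most `items`. -/
def dominates : List ℕ → List ℕ → Bool
  | _, [] => true
  | [], _ :: _ => false
  | a :: as, r :: rs => Nat.ble r a && dominates as rs

theorem PK_of_dominates {L k : ℕ} : ∀ (items R : List ℕ) (T : Multiset ℕ),
    dominates items R = true → PK L k (T + (items : Multiset ℕ)) → PK L k (T + (R : Multiset ℕ))
  | items, [], T, _, h => h.mono (by simp)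
  | [], _ :: _, _, hd, _ => by simp [dominates] at hd
  | a :: as, r :: rs, T, hd, h => by
    simp only [dominates, Bool.and_eq_true] at hd
    have hr : r ≤ a := Nat.le_of_ble_eq_true hd.1
    rw [← Multiset.cons_coe, Multiset.add_cons] at h ⊢
    have h2 := h.replace hr
    rw [← Multiset.cons_add] at h2 ⊢
    exact PK_of_dominates as rs (r ::ₘ T) hd.2 h2

/-- stop function: the list is not dominated by the reference list. -/
def stopRef (R : List ℕ) (items : List ℕ) : Bool := !(dominates items R)

theorem stopRef_true {L k0 : ℕ} (R : List ℕ) (hR : ¬ PK L k0 (R : Multiset ℕ)) :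
    ∀ l : List ℕ, PK L k0 (l : Multiset ℕ) → stopRef R l = true := by
  intro l hl
  unfold stopRef
  cases hd : dominates l R
  · rfl
  · exfalso
    apply hR
    have := PK_of_dominates (L := L) (k := k0) l R 0 hd (by simpa using hl)
    simpa using this

theorem not_PK_of_pack (L k : ℕ) (items : List ℕ)
    (h : pack L List.isEmpty 0 k items = false) : ¬ PK L k (items : Multiset ℕ) := by
  intro hp
  have := pack_true L List.isEmpty 0 (fun l hl => by
    have := hl.eq_zero
    have : l = [] := by simpa using this
    subst this; rfl) k items (by simpa using hp)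
  rw [h] at this
  exact Bool.false_ne_true this

theorem not_PK_of_pack_ref (L k k0 : ℕ) (R items : List ℕ) (hR : ¬ PK L k0 (R : Multiset ℕ))
    (h : pack L (stopRef R) k0 k items = false) : ¬ PK L (k + k0) (items : Multiset ℕ) := by
  intro hp
  have := pack_true L (stopRef R) k0 (stopRef_true R hR) k items hp
  rw [h] at this
  exact Bool.false_ne_true this

theorem PK_of_fitsF (L k : ℕ) (xs : List ℕ) (h : FitsF L k xs (fun _ => 0)) :
    PK L k (xs : Multiset ℕ) := by
  obtain ⟨f, hf⟩ := h
  refine ⟨(univ : Finset (Fin k)).val.map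
    (fun j => ((univ.filter (fun i => f i = j)).val.map xs.get)), by simp, ?_, ?_⟩
  · apply le_of_eq
    have h1 : ∀ s : Finset (Fin xs.length), s.val.map xs.get = ∑ i ∈ s, ({xs.get i} : Multiset ℕ) := by
      intro s
      rw [Finset.sum_eq_multiset_sum]
      have : Multiset.map (fun i => ({xs.get i} : Multiset ℕ)) s.val
          = Multiset.map (fun a => ({a} : Multiset ℕ)) (Multiset.map xs.get s.val) := by
        rw [Multiset.map_map]; rfl
      rw [this, Multiset.sum_map_singleton]
    have h2 : (Multiset.map (fun j => ((univ.filter (fun i => f i = j)).val.map xs.get))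
        (univ : Finset (Fin k)).val).join
        = ∑ j : Fin k, ∑ i ∈ univ.filter (fun i => f i = j), ({xs.get i} : Multiset ℕ) := by
      rw [Multiset.join, Finset.sum_eq_multiset_sum]
      congr 1
      apply Multiset.map_congr rfl
      intro j _
      exact h1 _
    rw [h2, Finset.sum_fiberwise, ← h1, Fin.univ_val_map, List.ofFn_get]
  · intro b hb
    obtain ⟨j, _, rfl⟩ := Multiset.mem_map.mp hb
    have := hf j
    rw [← Finset.sum_filter] at this
    simpa [Finset.sum_eq_multiset_sum] using this

theorem fitsF_of_packs (L : ℕ) (hL : 0 < L) (xs : List ℕ) (k : ℕ)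
    (hp : Packs (xs.map (fun x : ℕ => (x : ℚ) / (L : ℚ))) k) : FitsF L k xs (fun _ => 0) := by
  obtain ⟨f, hf⟩ := hp
  have hlen : (xs.map (fun x : ℕ => (x : ℚ) / (L : ℚ))).length = xs.length := by simp
  refine ⟨fun i => f (Fin.cast hlen.symm i), fun j => ?_⟩
  have h1 := hf j
  rw [Finset.sum_filter] at h1
  have h2 : ∑ i : Fin (xs.map (fun x : ℕ => (x : ℚ) / (L : ℚ))).length,
      (if f i = j then (xs.map (fun x : ℕ => (x : ℚ) / (L : ℚ))).get i else 0)
      = ∑ i : Fin xs.length, (if f (Fin.cast hlen.symm i) = j then ((xs.get i : ℕ) : ℚ) / L else 0) := by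
    rw [← (finCongr hlen.symm).sum_comp]
    apply Finset.sum_congr rfl
    intro i _
    simp
  rw [h2] at h1
  have h3 : ∑ i : Fin xs.length, (if f (Fin.cast hlen.symm i) = j then ((xs.get i : ℕ) : ℚ) / L else 0)
      = ((∑ i : Fin xs.length, (if f (Fin.cast hlen.symm i) = j then xs.get i else 0) : ℕ) : ℚ) / L := by
    rw [Nat.cast_sum, Finset.sum_div]
    apply Finset.sum_congr rfl
    intro i _
    split_ifs <;> simp
  rw [h3, div_le_one (by exact_mod_cast hL)] at h1
  have h4 : (∑ i : Fin xs.length, (if f (Fin.cast hlen.symm i) = j then xs.get i else 0)) ≤ L := by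
    exact_mod_cast h1
  simpa using h4

/-- If the items cannot be packed at the integer level, the scaled rational instance
cannot be packed in `k` unit bins. -/
theorem not_packs_of_not_PK (L : ℕ) (hL : 0 < L) (xs : List ℕ) (k : ℕ)
    (h : ¬ PK L k (xs : Multiset ℕ)) :
    ¬ Packs (xs.map (fun x : ℕ => (x : ℚ) / (L : ℚ))) k :=
  fun hp => h (PK_of_fitsF L k xs (fitsF_of_packs L hL xs k hp))

end Vale.Agent.Lib.P302
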