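import Vale.Agent.Lib.P302.Check

namespace Vale.Agent.Lib.P302

open Finset

theorem Packs.mono {a : List ℚ} {m k : ℕ} (hmk : m ≤ k) (h : Packs a m) : Packs a k := by
  obtain ⟨f, hf⟩ := h
  refine ⟨fun i => Fin.castLE hmk (f i), fun j => ?_⟩
  by_cases hj : j.val < m
  · have := hf ⟨j.val, hj⟩
    have heq : (univ.filter (fun i => Fin.castLE hmk (f i) = j))
        = univ.filter (fun i => f i = ⟨j.val, hj⟩) := by
      ext i
      simp only [mem_filter, mem_univ, true_and, Fin.ext_iff, Fin.val_castLE]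
    rw [heq]; exact this
  · have heq : (univ.filter (fun i => Fin.castLE hmk (f i) = j)) = ∅ := by
      ext i
      simp only [mem_filter, mem_univ, true_and, Fin.ext_iff, Fin.val_castLE, notMem_empty,
        iff_false]
      intro h
      exact hj (h ▸ (f i).isLt)
    rw [heq]; simp

theorem packs_length {a : List ℚ} (ha : IsInstance a) : Packs a a.length := by
  refine ⟨id, fun j => ?_⟩
  have : (univ.filter (fun i : Fin a.length => id i = j)) = {j} := by
    ext i; simp
  rw [this, sum_singleton]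
  exact (ha _ (List.get_mem a j)).2

theorem OPT_ge {a : List ℚ} (ha : IsInstance a) {k : ℕ} (h : ¬ Packs a k) : k + 1 ≤ OPT a := by
  unfold OPT
  apply le_csInf ⟨a.length, packs_length ha⟩
  intro m hm
  by_contra hlt
  exact h (Packs.mono (by omega) hm)

theorem OPT_le {a : List ℚ} {k : ℕ} (h : Packs a k) : OPT a ≤ k := Nat.sInf_le h

/-- the configuration (on rational sizes) given by a list of integer sizes -/
def cfg (L : ℕ) (p : List ℕ) : ℚ → ℕ := fun q => (p.map (fun x : ℕ => (x : ℚ) / (L : ℚ))).count q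

theorem scale_injective (L : ℕ) (hL : 0 < L) :
    Function.Injective (fun x : ℕ => (x : ℚ) / (L : ℚ)) := by
  intro x y hxy
  have hL' : (L : ℚ) ≠ 0 := by exact_mod_cast hL.ne'
  have : (x : ℚ) = y := by
    simpa [div_left_inj' hL'] using hxy
  exact_mod_cast this

theorem map_scale_sum (L : ℕ) : ∀ p : List ℕ,
    (p.map (fun x : ℕ => (x : ℚ) / (L : ℚ))).sum = ((p.sum : ℕ) : ℚ) / L
  | [] => by simp
  | x :: t => by
    simp only [List.map_cons, List.sum_cons, Nat.cast_add, add_div]
    rw [map_scale_sum L t]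

theorem cfg_isConfig (L : ℕ) (hL : 0 < L) (xs p : List ℕ) (hsub : ∀ s ∈ p, s ∈ xs)
    (hcap : p.sum ≤ L) : IsConfig (xs.map (fun x : ℕ => (x : ℚ) / (L : ℚ))) (cfg L p) := by
  constructor
  · intro s hs
    unfold cfg
    rw [List.count_eq_zero]
    intro hmem
    apply hs
    obtain ⟨x, hx, rfl⟩ := List.mem_map.mp hmem
    exact List.mem_map.mpr ⟨x, hsub x hx, rfl⟩
  · have hsubset : (p.map (fun x : ℕ => (x : ℚ) / (L : ℚ))).toFinset
        ⊆ (xs.map (fun x : ℕ => (x : ℚ) / (L : ℚ))).toFinset := by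
      intro q hq
      rw [List.mem_toFinset] at hq ⊢
      obtain ⟨x, hx, rfl⟩ := List.mem_map.mp hq
      exact List.mem_map.mpr ⟨x, hsub x hx, rfl⟩
    have h1 := Finset.sum_list_count_of_subset (p.map (fun x : ℕ => (x : ℚ) / (L : ℚ))) _ hsubset
    have h2 : ∑ s ∈ (xs.map (fun x : ℕ => (x : ℚ) / (L : ℚ))).toFinset, s * ((cfg L p s : ℕ) : ℚ)
        = (p.map (fun x : ℕ => (x : ℚ) / (L : ℚ))).sum := by
      rw [h1]
      apply Finset.sum_congr rfl
      intro s _
      simp [cfg, mul_comm]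
    rw [h2]
    have h3 := map_scale_sum L p
    rw [h3, div_le_one (by exact_mod_cast hL)]
    exact_mod_cast hcap

/-- weights on configurations built from a list of (pattern, numerator) pairs -/
noncomputable def zOf (L D : ℕ) : List (List ℕ × ℕ) → ((ℚ → ℕ) →₀ ℝ)
  | [] => 0
  | p :: t => Finsupp.single (cfg L p.1) ((p.2 : ℝ) / D) + zOf L D t

theorem zOf_nonneg (L D : ℕ) : ∀ (pats : List (List ℕ × ℕ)) (c : ℚ → ℕ), 0 ≤ zOf L D pats c
  | [], c => by simp [zOf]
  | p :: t, c => by
    classical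
    simp only [zOf, Finsupp.add_apply]
    apply add_nonneg _ (zOf_nonneg L D t c)
    rw [Finsupp.single_apply]
    split_ifs
    · positivity
    · exact le_rfl

theorem zOf_support (L D : ℕ) : ∀ (pats : List (List ℕ × ℕ)) (c : ℚ → ℕ),
    zOf L D pats c ≠ 0 → ∃ p ∈ pats, c = cfg L p.1
  | [], c, h => by simp [zOf] at h
  | p :: t, c, h => by
    classical
    simp only [zOf, Finsupp.add_apply] at h
    by_cases h1 : Finsupp.single (cfg L p.1) ((p.2 : ℝ) / D) c = 0
    · rw [h1, zero_add] at h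
      obtain ⟨q, hq, hc⟩ := zOf_support L D t c h
      exact ⟨q, List.mem_cons_of_mem _ hq, hc⟩
    · rw [Finsupp.single_apply] at h1
      split_ifs at h1 with h2
      · exact ⟨p, List.mem_cons_self, h2.symm⟩
      · exact absurd rfl h1

theorem zOf_sum (L D : ℕ) (g : (ℚ → ℕ) → ℝ) : ∀ (pats : List (List ℕ × ℕ)),
    (zOf L D pats).sum (fun c w => g c * w)
      = (pats.map (fun p => g (cfg L p.1) * ((p.2 : ℝ) / D))).sum
  | [] => by simp [zOf]
  | p :: t => by
    classical
    simp only [zOf, List.map_cons, List.sum_cons]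
    rw [Finsupp.sum_add_index' (by intro c; simp) (by intro c x y; ring),
      Finsupp.sum_single_index (by simp), zOf_sum L D g t]

theorem LP_bddBelow (a : List ℚ) :
    BddBelow {v | ∃ z : (ℚ → ℕ) →₀ ℝ, IsLPFeasible a z ∧ v = z.sum (fun _ w => w)} := by
  refine ⟨0, ?_⟩
  rintro v ⟨z, hz, rfl⟩
  exact Finsupp.sum_nonneg (fun c _ => hz.1 c)

/-- Upper bound for the LP value from an explicit fractional solution. -/
theorem LP_le (L : ℕ) (hL : 0 < L) (xs : List ℕ) (pats : List (List ℕ × ℕ)) (D : ℕ) (hD : 0 < D)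
    (hsub : ∀ p ∈ pats, ∀ s ∈ p.1, s ∈ xs) (hcap : ∀ p ∈ pats, p.1.sum ≤ L)
    (hcov : ∀ s ∈ xs, D * xs.count s ≤ (pats.map (fun p => p.1.count s * p.2)).sum) :
    LP (xs.map (fun x : ℕ => (x : ℚ) / (L : ℚ))) ≤ ((pats.map (fun p => p.2)).sum : ℕ) / (D : ℝ) := by
  unfold LP
  apply csInf_le (LP_bddBelow _)
  refine ⟨zOf L D pats, ⟨zOf_nonneg L D pats, ?_, ?_⟩, ?_⟩
  · intro c hc
    rw [Finsupp.mem_support_iff] at hc
    obtain ⟨p, hp, rfl⟩ := zOf_support L D pats c hc
    exact cfg_isConfig L hL xs p.1 (hsub p hp) (hcap p hp)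
  · intro q hq
    rw [List.mem_toFinset] at hq
    obtain ⟨s, hs, rfl⟩ := List.mem_map.mp hq
    rw [zOf_sum L D (fun c => (c ((s : ℚ) / (L : ℚ)) : ℝ)) pats]
    rw [List.count_map_of_injective _ _ (scale_injective L hL)]
    have h1 := hcov s hs
    have h2 : (pats.map (fun p => ((cfg L p.1 ((s : ℚ) / (L : ℚ)) : ℕ) : ℝ) * ((p.2 : ℝ) / D))).sum
        = (((pats.map (fun p => p.1.count s * p.2)).sum : ℕ) : ℝ) / D := by
      clear h1 hcov hcap hsub
      induction pats with
      | nil => simp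
      | cons p t ih =>
        simp only [List.map_cons, List.sum_cons, Nat.cast_add, Nat.cast_mul, add_div]
        rw [ih]
        congr 1
        unfold cfg
        rw [List.count_map_of_injective _ _ (scale_injective L hL)]
        ring
    rw [h2, le_div_iff₀ (by exact_mod_cast hD)]
    have : ((D * xs.count s : ℕ) : ℝ) ≤ (((pats.map (fun p => p.1.count s * p.2)).sum : ℕ) : ℝ) := by
      exact_mod_cast h1
    push_cast at this ⊢
    linarith
  · have := zOf_sum L D (fun _ => 1) pats
    simp only [one_mul] at this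
    rw [this]
    clear this hcov hcap hsub
    induction pats with
    | nil => simp
    | cons p t ih =>
      simp only [List.map_cons, List.sum_cons, Nat.cast_add, add_div]
      rw [← ih]

theorem isInstance_scale (L : ℕ) (xs : List ℕ) (h : ∀ x ∈ xs, 0 < x ∧ x ≤ L) :
    IsInstance (xs.map (fun x : ℕ => (x : ℚ) / (L : ℚ))) := by
  intro q hq
  obtain ⟨x, hx, rfl⟩ := List.mem_map.mp hq
  obtain ⟨h0, h1⟩ := h x hx
  have hL : (0 : ℚ) < L := by exact_mod_cast lt_of_lt_of_le h0 h1
  constructor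
  · have : (0 : ℚ) < x := by exact_mod_cast h0
    positivity
  · rw [div_le_one hL]; exact_mod_cast h1

end Vale.Agent.Lib.P302
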