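import Vale.Agent.Lib.P302.Defs

namespace Vale.Agent.Lib.P302

open Finset

/-- Prop-level search: items `xs` can be added to bins with loads `M` under capacity `L`. -/
def FitsP (L : ℕ) : List ℕ → Multiset ℕ → Prop
  | [], _ => True
  | x :: xs, M => ∃ b ∈ M, b + x ≤ L ∧ FitsP L xs ((b + x) ::ₘ M.erase b)

/-- Boolean search. -/
def check (L : ℕ) : List ℕ → List ℕ → Bool
  | [], _ => true
  | x :: xs, loads =>
    loads.dedup.any (fun b => decide (b + x ≤ L) && check L xs ((b + x) :: loads.erase b))

theorem check_of_fitsP (L : ℕ) : ∀ (xs : List ℕ) (loads : List ℕ),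
    FitsP L xs (loads : Multiset ℕ) → check L xs loads = true
  | [], _, _ => rfl
  | x :: xs, loads, h => by
    obtain ⟨b, hb, hle, hrec⟩ := h
    simp only [check, List.any_eq_true, Bool.and_eq_true, decide_eq_true_eq]
    refine ⟨b, ?_, hle, ?_⟩
    · rw [List.mem_dedup]; simpa using hb
    · apply check_of_fitsP L xs
      rw [Multiset.coe_erase, Multiset.cons_coe] at hrec
      exact hrec

/-- assignment form -/
def FitsF (L : ℕ) (k : ℕ) (xs : List ℕ) (ld : Fin k → ℕ) : Prop :=
  ∃ f : Fin xs.length → Fin k, ∀ j, ld j + ∑ i, (if f i = j then xs.get i else 0) ≤ L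

theorem map_update_univ {k : ℕ} (ld : Fin k → ℕ) (j0 : Fin k) (v : ℕ) :
    Multiset.map (Function.update ld j0 v) (univ : Finset (Fin k)).val
      = v ::ₘ (Multiset.map ld (univ : Finset (Fin k)).val).erase (ld j0) := by
  classical
  have h1 : (univ : Finset (Fin k)).val = j0 ::ₘ ((univ : Finset (Fin k)).erase j0).val := by
    rw [Finset.erase_val]
    exact (Multiset.cons_erase (Finset.mem_univ j0)).symm
  rw [h1, Multiset.map_cons, Multiset.map_cons, Multiset.erase_cons_head, Function.update_self]
  congr 1
  apply Multiset.map_congr rfl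
  intro x hx
  have : x ≠ j0 := by
    have := Finset.mem_erase.mp (show x ∈ (univ : Finset (Fin k)).erase j0 from hx)
    exact this.1
  rw [Function.update_of_ne this]

theorem fitsP_of_fitsF (L k : ℕ) : ∀ (xs : List ℕ) (ld : Fin k → ℕ),
    FitsF L k xs ld → FitsP L xs (Multiset.map ld (univ : Finset (Fin k)).val)
  | [], _, _ => trivial
  | x :: xs, ld, h => by
    obtain ⟨f, hf⟩ := h
    set j0 := f ⟨0, by simp⟩ with hj0
    refine ⟨ld j0, Multiset.mem_map_of_mem ld (Finset.mem_univ j0), ?_, ?_⟩
    · have := hf j0
      have h2 : x ≤ ∑ i, (if f i = j0 then (x :: xs).get i else 0) := by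
        have := Finset.single_le_sum (f := fun i => if f i = j0 then (x :: xs).get i else 0)
          (s := univ) (fun i _ => Nat.zero_le _) (Finset.mem_univ (⟨0, by simp⟩ : Fin (x :: xs).length))
        simpa [hj0] using this
      omega
    · rw [← map_update_univ]
      apply fitsP_of_fitsF L k xs
      refine ⟨fun i => f i.succ, fun j => ?_⟩
      show Function.update ld j0 (ld j0 + x) j
        + ∑ i : Fin xs.length, (if f i.succ = j then xs.get i else 0) ≤ L
      have := hf j
      have hs : ∑ i : Fin (x :: xs).length, (if f i = j then (x :: xs).get i else 0)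
          = (if j0 = j then x else 0) + ∑ i : Fin xs.length, (if f i.succ = j then xs.get i else 0) := by
        have := Fin.sum_univ_succ (n := xs.length)
          (fun i : Fin (xs.length + 1) => if f i = j then (x :: xs).get i else 0)
        simpa [hj0] using this
      rw [hs] at this
      by_cases hj : j0 = j
      · subst hj
        simp only [Function.update_self]
        simp only [if_true] at this
        omega
      · rw [Function.update_of_ne (Ne.symm hj)]
        simp only [hj, if_false] at this
        omega

/-- If the Boolean search fails, the scaled instance cannot be packed in `k` bins. -/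
theorem not_packs_of_check (L : ℕ) (hL : 0 < L) (xs : List ℕ) (k : ℕ)
    (h : check L xs (List.replicate k 0) = false) :
    ¬ Packs (xs.map (fun x : ℕ => (x : ℚ) / (L : ℚ))) k := by
  intro hp
  obtain ⟨f, hf⟩ := hp
  have hlen : (xs.map (fun x : ℕ => (x : ℚ) / (L : ℚ))).length = xs.length := by simp
  have key : FitsF L k xs (fun _ => 0) := by
    refine ⟨fun i => f (Fin.cast hlen.symm i), fun j => ?_⟩
    have h1 := hf j
    rw [Finset.sum_filter] at h1
    have h2 : ∑ i : Fin (xs.map (fun x : ℕ => (x : ℚ) / (L : ℚ))).length,
        (if f i = j then (xs.map (fun x : ℕ => (x : ℚ) / (L : ℚ))).get i else 0)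
        = ∑ i : Fin xs.length, (if f (Fin.cast hlen.symm i) = j then ((xs.get i : ℕ) : ℚ) / L else 0) := by
      rw [← (finCongr hlen.symm).sum_comp]
      apply Finset.sum_congr rfl
      intro i _
      simp
    rw [h2] at h1
    have h3 : ∑ i : Fin xs.length, (if f (Fin.cast hlen.symm i) = j then ((xs.get i : ℕ) : ℚ) / L else 0)
        = ((∑ i : Fin xs.length, (if f (Fin.cast hlen.symm i) = j then xs.get i else 0) : ℕ) : ℚ) / L := by
      rw [Nat.cast_sum, Finset.sum_div]
      apply Finset.sum_congr rfl
      intro i _
      split_ifs <;> simp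
    rw [h3, div_le_one (by exact_mod_cast hL)] at h1
    have h4 : (∑ i : Fin xs.length, (if f (Fin.cast hlen.symm i) = j then xs.get i else 0)) ≤ L := by
      exact_mod_cast h1
    simpa using h4
  have h5 := fitsP_of_fitsF L k xs _ key
  have h6 : Multiset.map (fun _ : Fin k => 0) (univ : Finset (Fin k)).val
      = ((List.replicate k 0 : List ℕ) : Multiset ℕ) := by
    rw [Multiset.map_const', Multiset.coe_replicate]
    simp
  rw [h6] at h5
  have := check_of_fitsP L xs _ h5
  rw [h] at this
  exact Bool.false_ne_true this

end Vale.Agent.Lib.P302
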