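import Mathlib

namespace Vale.Agent.Lib.P302

/-- A bin packing instance is a finite list of rational item sizes in `(0,1]`. -/
def IsInstance (a : List ℚ) : Prop := ∀ x ∈ a, 0 < x ∧ x ≤ 1

/-- The items of `a` (indexed by position) can be partitioned into `k` bins,
each of total size at most `1`. -/
def Packs (a : List ℚ) (k : ℕ) : Prop :=
  ∃ f : Fin a.length → Fin k, ∀ j : Fin k,
    ∑ i ∈ Finset.univ.filter (fun i => f i = j), a.get i ≤ 1

/-- `OPT(I)`: the least number of bins into which the items can be partitioned. -/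
noncomputable def OPT (a : List ℚ) : ℕ := sInf {k | Packs a k}

/-- A configuration: a vector of multiplicities on the distinct sizes of `a`
(zero off the sizes of `a`) of total size at most `1`.  A size may occur more often
than its multiplicity in `a`. -/
def IsConfig (a : List ℚ) (c : ℚ → ℕ) : Prop :=
  (∀ s, s ∉ a → c s = 0) ∧ ∑ s ∈ a.toFinset, s * (c s : ℚ) ≤ 1

/-- Feasible solutions of the Gilmore-Gomory configuration LP: nonnegative weights `z c`
on configurations covering every distinct size `s` at least `count s` times. -/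
def IsLPFeasible (a : List ℚ) (z : (ℚ → ℕ) →₀ ℝ) : Prop :=
  (∀ c, 0 ≤ z c) ∧ (∀ c ∈ z.support, IsConfig a c) ∧
    ∀ s ∈ a.toFinset, (a.count s : ℝ) ≤ z.sum (fun c w => (c s : ℝ) * w)

/-- `LP(I)`: the value of the configuration LP. -/
noncomputable def LP (a : List ℚ) : ℝ :=
  sInf {v | ∃ z : (ℚ → ℕ) →₀ ℝ, IsLPFeasible a z ∧ v = z.sum (fun _ w => w)}

end Vale.Agent.Lib.P302
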